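import Mathlib
import Vale.Agent.Lib.P325.helper61.StarDense

open Vale.Agent.Lib.P325.H61

/-- Star rounding for Unique Games instances on dense constraint graphs.
An instance is given by a nonempty finite vertex set `V`, the alphabet `Fin k`, a set `E` of
ordered pairs of vertices and permutations `π v w`; the constraint of `(v, w) ∈ E` on a labeling
`b` is `b w = π v w (b v)`, and `ugViolOn E π b` is the number of violated constraints.
Suppose every vertex `v` has at most `D` vertices `u ≠ v` with `(u, v) ∉ E`. Then for every
labeling `a` there is a vertex `u` such that the star labeling with centre `u` and label `a u`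
(the label `π u v (a u)` at every `v` with `(u, v) ∈ E`, the label `a u` elsewhere) satisfies
`|V| * viol(star) ≤ 3 * |V| * viol(a) + 2 * D * |E|`. -/
theorem Vale.Agent.Results.P325.DenseStarRounding.result
    (V : Type) [Fintype V] [DecidableEq V] [Nonempty V] (k : ℕ)
    (E : Finset (V × V)) (π : V → V → Equiv.Perm (Fin k)) (D : ℕ)
    (hD : ∀ v : V, ((Finset.univ : Finset V).filter (fun u => u ≠ v ∧ (u, v) ∉ E)).card ≤ D)
    (a : V → Fin k) :
    ∃ u : V, Fintype.card V * ugViolOn E π (starLab E π u (a u)) ≤
      3 * Fintype.card V * ugViolOn E π a + 2 * D * E.card :=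
  star_rounding_dense V k E π D hD a
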